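import Vale.Agent.P230.H826.Sym

/-!
# P230: the random body against finite families of isometries
-/

namespace Vale.Agent.N230

open MeasureTheory Metric Set Vale.Agent.P230.LB

/-- isometries of Euclidean space -/
abbrev Iso (n : ℕ) : Type := E n ≃ᵢ E n

variable {n : ℕ}

theorem iso_norm (φ : Iso n) (a b : E n) : ‖φ a - φ b‖ = ‖a - b‖ := by
  rw [← dist_eq_norm, ← dist_eq_norm, φ.dist_eq]

open Classical in
/-- the images of `y` of norm at most one -/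
noncomputable def ZI (X : Finset (Iso n)) (y : E n) : Finset (E n) :=
  (X.image (fun φ => φ y)).filter (fun z => ‖z‖ ≤ 1)

/-- good points -/
def GoodI (n : ℕ) (X : Finset (Iso n)) (y : E n) : Prop :=
  (∀ φ ∈ X, r1 n ≤ ‖φ y‖) ∧ (ZI X y).card ≤ n ^ 2 ∧
    ∑ z ∈ ZI X y, (3 + C1 * n * (1 - ‖z‖)) ≤ Hmax n

/-- clusters of good points -/
structure Clus (n : ℕ) (X : Finset (Iso n)) where
  Y : Fin (7 ^ n) → Finset (E n)
  inB : ∀ g, ∀ y ∈ Y g, ‖y‖ ≤ 1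
  good : ∀ g, ∀ y ∈ Y g, GoodI n X y
  card : ∀ g, m0 n ^ 2 * Real.exp (Hmax n) ≤ (Y g).card
  sep : ∀ g, ∀ y ∈ Y g, ∀ y' ∈ Y g, y ≠ y' → 2 * bet n ≤ ‖y - y'‖
  far : ∀ g g', g ≠ g' → ∀ y ∈ Y g, ∀ y' ∈ Y g', ∀ φ ∈ X, ∀ φ' ∈ X, 1 / 80 ≤ ‖φ y - φ' y'‖

/-- unfinished families of clusters -/
structure PartI (n : ℕ) (X : Finset (Iso n)) (k : ℕ) (Y : ℕ → Finset (E n)) (t : ℕ → E n) :
    Prop where
  inB : ∀ g < k, ∀ y ∈ Y g, ‖y‖ ≤ 1
  good : ∀ g < k, ∀ y ∈ Y g, GoodI n X y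
  card : ∀ g < k, m0 n ^ 2 * Real.exp (Hmax n) ≤ (Y g).card
  sep : ∀ g < k, ∀ y ∈ Y g, ∀ y' ∈ Y g, y ≠ y' → 2 * bet n ≤ ‖y - y'‖
  near : ∀ g < k, ∀ y ∈ Y g, ‖y - t g‖ ≤ 1 / 80
  far : ∀ g < k, ∀ g' < g, ∀ y ∈ Y g, ∀ φ ∈ X, ∀ φ' ∈ X, 1 / 40 ≤ ‖φ (t g') - φ' y‖

open ClusL in
/-- one more cluster -/
theorem step_aux (hn : 1 ≤ n) {X : Finset (Iso n)} (hX : (X.card : ℝ) ≤ m0 n)
    (hb : 0 < bet n)
    (hc1 : m0 n ^ 2 * Real.exp (Hmax n) * (161 ^ n * (2 * bet n) ^ n) ≤ 1 / 4)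
    (hc2 : m0 n ^ 2 * (1 / 40) ^ n * 7 ^ n ≤ 1 / 4)
    (hG : vol (B n) / 2 ≤ vol {y : E n | ‖y‖ ≤ 1 ∧ GoodI n X y})
    {k : ℕ} (hk : k < 7 ^ n) (t : ℕ → E n) :
    ∃ (Z : Finset (E n)) (s : E n), (∀ y ∈ Z, ‖y‖ ≤ 1 ∧ GoodI n X y) ∧
      m0 n ^ 2 * Real.exp (Hmax n) ≤ Z.card ∧
      (∀ y ∈ Z, ∀ y' ∈ Z, y ≠ y' → 2 * bet n ≤ ‖y - y'‖) ∧ (∀ y ∈ Z, ‖y - s‖ ≤ 1 / 80) ∧
      ∀ g' < k, ∀ y ∈ Z, ∀ φ ∈ X, ∀ φ' ∈ X, 1 / 40 ≤ ‖φ (t g') - φ' y‖ := by
  classical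
  set G : Set (E n) := {y : E n | ‖y‖ ≤ 1 ∧ GoodI n X y} with hGdef
  set Rm : Set (E n) := ⋃ p ∈ (Finset.range k) ×ˢ (X ×ˢ X),
    closedBall (p.2.2.symm (p.2.1 (t p.1))) (1 / 40) with hRm
  have hVB := vol_B_pos n
  have hm0 : 0 ≤ m0 n := by unfold m0; positivity
  have hRmvol : vol Rm ≤ vol (B n) / 4 := by
    have h1 : vol Rm ≤ ∑ p ∈ (Finset.range k) ×ˢ (X ×ˢ X),
        vol (closedBall (p.2.2.symm (p.2.1 (t p.1))) (1 / 40)) :=
      measureReal_biUnion_finset_le _ _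
    refine h1.trans ?_
    rw [Finset.sum_congr rfl fun p _ => vol_closedBall _ (by norm_num : (0 : ℝ) ≤ 1 / 40),
      Finset.sum_const, Finset.card_product, Finset.card_product, Finset.card_range, nsmul_eq_mul]
    push_cast
    have hk' : (k : ℝ) ≤ 7 ^ n := by exact_mod_cast hk.le
    have hXX : (X.card : ℝ) * X.card ≤ m0 n ^ 2 := by
      rw [sq]
      exact mul_le_mul hX hX (Nat.cast_nonneg _) hm0
    calc (k : ℝ) * ((X.card : ℝ) * X.card) * ((1 / 40) ^ n * vol (B n))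
        ≤ 7 ^ n * m0 n ^ 2 * ((1 / 40) ^ n * vol (B n)) := by
          refine mul_le_mul_of_nonneg_right ?_ (by positivity)
          exact mul_le_mul hk' hXX (by positivity) (by positivity)
      _ = (m0 n ^ 2 * (1 / 40) ^ n * 7 ^ n) * vol (B n) := by ring
      _ ≤ 1 / 4 * vol (B n) := mul_le_mul_of_nonneg_right hc2 hVB.le
      _ = vol (B n) / 4 := by ring
  have hRmtop : (volume : Measure (E n)) Rm ≠ ⊤ := by
    refine (lt_of_le_of_lt (measure_biUnion_finset_le _ _) ?_).ne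
    exact ENNReal.sum_lt_top.2 fun p _ => measure_closedBall_lt_top
  have hG' : vol (B n) / 4 ≤ vol (G \ Rm) := by
    have h1 : vol G - vol Rm ≤ vol (G \ Rm) := le_measureReal_sdiff hRmtop
    linarith only [hG, hRmvol, h1]
  obtain ⟨Gr, hGr1, -, hGr3⟩ := netLemma n hn 1 (1 / 80) zero_le_one (by norm_num)
  have hGr1' : (Gr.card : ℝ) ≤ 161 ^ n := by
    refine hGr1.trans (le_of_eq ?_)
    norm_num
  have hcov : G \ Rm ⊆ ⋃ s ∈ Gr, (G \ Rm) ∩ closedBall s (1 / 80) := by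
    intro y hy
    obtain ⟨s, hs, hys⟩ := hGr3 y hy.1.1
    refine mem_iUnion₂.2 ⟨s, hs, hy, ?_⟩
    rwa [mem_closedBall_iff_norm]
  have htop : ∀ s : E n, (volume : Measure (E n)) ((G \ Rm) ∩ closedBall s (1 / 80)) ≠ ⊤ :=
    fun s => ne_top_of_bdd inter_subset_right
  have hsum : vol (B n) / 4 ≤ ∑ s ∈ Gr, vol ((G \ Rm) ∩ closedBall s (1 / 80)) := by
    refine hG'.trans ?_
    refine (measureReal_mono (μ := (volume : Measure (E n))) hcov ?_).trans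
      (measureReal_biUnion_finset_le _ _)
    refine (lt_of_le_of_lt (measure_biUnion_finset_le _ _) ?_).ne
    exact ENNReal.sum_lt_top.2 fun s _ => (htop s).lt_top
  obtain ⟨s, -, hs⟩ : ∃ s ∈ Gr, vol (B n) / 4 ≤
      161 ^ n * vol ((G \ Rm) ∩ closedBall s (1 / 80)) := by
    by_contra hcon
    push Not at hcon
    have hne : Gr.Nonempty := by
      rw [Finset.nonempty_iff_ne_empty]
      rintro rfl
      rw [Finset.sum_empty] at hsum
      linarith only [hVB, hsum]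
    have h1 : ∑ s ∈ Gr, 161 ^ n * vol ((G \ Rm) ∩ closedBall s (1 / 80)) <
        ∑ s ∈ Gr, vol (B n) / 4 := Finset.sum_lt_sum_of_nonempty hne hcon
    rw [← Finset.mul_sum, Finset.sum_const, nsmul_eq_mul] at h1
    have h2 : (161 : ℝ) ^ n * (vol (B n) / 4) ≤
        161 ^ n * ∑ s ∈ Gr, vol ((G \ Rm) ∩ closedBall s (1 / 80)) :=
      mul_le_mul_of_nonneg_left hsum (by positivity)
    have h3 : (Gr.card : ℝ) * (vol (B n) / 4) ≤ 161 ^ n * (vol (B n) / 4) :=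
      mul_le_mul_of_nonneg_right hGr1' (by positivity)
    linarith only [h3, h2, h1]
  set S : Set (E n) := (G \ Rm) ∩ closedBall s (1 / 80) with hS
  obtain ⟨Z, hZ1, hZ2, hZ3⟩ := exists_max S (R := 1) (ε := 2 * bet n) zero_le_one (by positivity)
    (fun y hy => hy.1.1.1)
  refine ⟨Z, s, fun y hy => (hZ1 y hy).1.1, ?_, fun y hy y' hy' hne => (hZ2 y hy y' hy' hne).le,
    fun y hy => ?_, ?_⟩
  · have h1 : vol S ≤ Z.card * ((2 * bet n) ^ n * vol (B n)) := by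
      have h2 : S ⊆ ⋃ y ∈ Z, closedBall y (2 * bet n) := by
        intro x hx
        obtain ⟨y, hy, hxy⟩ := hZ3 x hx
        refine mem_iUnion₂.2 ⟨y, hy, ?_⟩
        rwa [mem_closedBall_iff_norm]
      have h3 : vol S ≤ ∑ y ∈ Z, vol (closedBall y (2 * bet n)) := by
        refine (measureReal_mono (μ := (volume : Measure (E n))) h2 ?_).trans
          (measureReal_biUnion_finset_le _ _)
        refine (lt_of_le_of_lt (measure_biUnion_finset_le _ _) ?_).ne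
        exact ENNReal.sum_lt_top.2 fun p _ => measure_closedBall_lt_top
      rwa [Finset.sum_congr rfl fun p _ => vol_closedBall _ (by positivity : 0 ≤ 2 * bet n),
        Finset.sum_const, nsmul_eq_mul] at h3
    have h4 : 1 / 4 ≤ (Z.card : ℝ) * (161 ^ n * (2 * bet n) ^ n) := by
      have h5 : vol (B n) / 4 ≤ 161 ^ n * (Z.card * ((2 * bet n) ^ n * vol (B n))) :=
        hs.trans (mul_le_mul_of_nonneg_left h1 (by positivity))
      have h6 : 1 / 4 * vol (B n) ≤ (Z.card : ℝ) * (161 ^ n * (2 * bet n) ^ n) * vol (B n) := by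
        calc 1 / 4 * vol (B n) = vol (B n) / 4 := by ring
          _ ≤ _ := h5
          _ = _ := by ring
      exact le_of_mul_le_mul_right h6 hVB
    exact le_of_mul_le_mul_right (hc1.trans h4) (by positivity)
  · have := (hZ1 y hy).2
    rwa [mem_closedBall_iff_norm] at this
  · intro g' hg' y hy φ hφ φ' hφ'
    by_contra hcon
    apply (hZ1 y hy).1.2
    refine mem_iUnion₂.2 ⟨(g', φ, φ'), ?_, ?_⟩
    · exact Finset.mem_product.2 ⟨Finset.mem_range.2 hg', Finset.mem_product.2 ⟨hφ, hφ'⟩⟩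
    · rw [mem_closedBall_iff_norm, norm_sub_rev]
      simp only
      rw [← iso_norm φ', φ'.apply_symm_apply]
      exact (not_le.1 hcon).le

theorem clusterI : ∃ n0 : ℕ, ∀ n : ℕ, n0 ≤ n → ∀ X : Finset (Iso n), (X.card : ℝ) ≤ m0 n →
    vol (B n) / 2 ≤ vol {y : E n | ‖y‖ ≤ 1 ∧ GoodI n X y} → Nonempty (Clus n X) := by
  classical
  obtain ⟨n0, h0⟩ := numCluster
  refine ⟨max n0 1, fun n hn X hX hG => ?_⟩
  obtain ⟨hb, hc1, hc2⟩ := h0 n (le_trans (le_max_left _ _) hn)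
  have hn1 : 1 ≤ n := le_trans (le_max_right _ _) hn
  have key : ∀ k ≤ 7 ^ n, ∃ (Y : ℕ → Finset (E n)) (t : ℕ → E n), PartI n X k Y t := by
    intro k
    induction k with
    | zero =>
      intro _
      exact ⟨fun _ => ∅, fun _ => 0, by
        constructor <;> intro g hg <;> exact absurd hg (Nat.not_lt_zero _)⟩
    | succ k ih =>
      intro hk
      obtain ⟨Y, t, h⟩ := ih (Nat.le_of_succ_le hk)
      obtain ⟨Z, s, z1, z2, z3, z4, z5⟩ := step_aux hn1 hX hb hc1 hc2 hG hk t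
      refine ⟨Function.update Y k Z, Function.update t k s, ?_⟩
      have hcase : ∀ g, g < k + 1 → (g < k ∧ Function.update Y k Z g = Y g ∧
          Function.update t k s g = t g) ∨ (g = k ∧ Function.update Y k Z g = Z ∧
          Function.update t k s g = s) := by
        intro g hg
        rcases Nat.lt_succ_iff_lt_or_eq.1 hg with h1 | h1
        · left
          exact ⟨h1, Function.update_of_ne h1.ne _ _, Function.update_of_ne h1.ne _ _⟩
        · right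
          subst h1
          exact ⟨rfl, Function.update_self _ _ _, Function.update_self _ _ _⟩
      constructor
      · intro g hg y hy
        rcases hcase g hg with ⟨h1, h2, h3⟩ | ⟨h1, h2, h3⟩
        · rw [h2] at hy; exact h.inB g h1 y hy
        · rw [h2] at hy; exact (z1 y hy).1
      · intro g hg y hy
        rcases hcase g hg with ⟨h1, h2, h3⟩ | ⟨h1, h2, h3⟩
        · rw [h2] at hy; exact h.good g h1 y hy
        · rw [h2] at hy; exact (z1 y hy).2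
      · intro g hg
        rcases hcase g hg with ⟨h1, h2, h3⟩ | ⟨h1, h2, h3⟩
        · rw [h2]; exact h.card g h1
        · rw [h2]; exact z2
      · intro g hg y hy y' hy'
        rcases hcase g hg with ⟨h1, h2, h3⟩ | ⟨h1, h2, h3⟩
        · rw [h2] at hy hy'; exact h.sep g h1 y hy y' hy'
        · rw [h2] at hy hy'; exact z3 y hy y' hy'
      · intro g hg y hy
        rcases hcase g hg with ⟨h1, h2, h3⟩ | ⟨h1, h2, h3⟩
        · rw [h2] at hy; rw [h3]; exact h.near g h1 y hy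
        · rw [h2] at hy; rw [h3]; exact z4 y hy
      · intro g hg g' hg' y hy
        have hg'' : Function.update t k s g' = t g' := by
          refine Function.update_of_ne ?_ _ _
          omega
        rw [hg'']
        rcases hcase g hg with ⟨h1, h2, h3⟩ | ⟨h1, h2, h3⟩
        · rw [h2] at hy; exact h.far g h1 g' hg' y hy
        · rw [h2] at hy; exact z5 g' (h1 ▸ hg') y hy
  obtain ⟨Y, t, h⟩ := key (7 ^ n) le_rfl
  refine ⟨⟨fun g => Y g, fun g => h.inB g g.2, fun g => h.good g g.2, fun g => h.card g g.2,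
    fun g => h.sep g g.2, ?_⟩⟩
  intro g g' hne y hy y' hy' φ hφ φ' hφ'
  rcases lt_or_gt_of_ne hne with hlt | hlt
  · have h1 := h.far g' g'.2 g hlt y' hy' φ hφ φ' hφ'
    have h2 := h.near g g.2 y hy
    rw [← iso_norm φ] at h2
    have h3 : φ (t g) - φ' y' = (φ y - φ' y') - (φ y - φ (t g)) := by abel
    rw [h3] at h1
    have h4 := norm_sub_le (φ y - φ' y') (φ y - φ (t g))
    linarith only [h4, h2, h1]
  · have h1 := h.far g g.2 g' hlt y hy φ' hφ' φ hφ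
    have h2 := h.near g' g'.2 y' hy'
    rw [← iso_norm φ'] at h2
    have h3 : φ' (t g') - φ y = -(φ y - φ' y') - (φ' y' - φ' (t g')) := by abel
    rw [h3] at h1
    have h4 := norm_sub_le (-(φ y - φ' y')) (φ' y' - φ' (t g'))
    rw [norm_neg] at h4
    linarith only [h4, h2, h1]

theorem mem_ZI {X : Finset (Iso n)} {y z : E n} :
    z ∈ ZI X y ↔ (∃ φ ∈ X, φ y = z) ∧ ‖z‖ ≤ 1 := by
  unfold ZI
  rw [Finset.mem_filter, Finset.mem_image]

theorem shellI {X : Finset (Iso n)} {y : E n} (h : GoodI n X y) : Shell n (ZI X y) := by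
  refine ⟨fun z hz => ?_, h.2.1⟩
  obtain ⟨⟨x, hx, rfl⟩, hz1⟩ := mem_ZI.1 hz
  exact ⟨h.1 x hx, hz1⟩

theorem bad_card {X : Finset (Iso n)} {Y : Finset (E n)} {b : ℝ}
    (hsep : ∀ y ∈ Y, ∀ y' ∈ Y, y ≠ y' → 2 * b ≤ ‖y - y'‖) (y : E n) (hX : (X.card : ℝ) ≤ m0 n)
    (A : Finset (E n)) (hBY : A ⊆ Y)
    (hB : ∀ y' ∈ A, ∃ φ ∈ X, ∃ φ' ∈ X, ‖φ y - φ' y'‖ < b) :
    (A.card : ℝ) ≤ m0 n ^ 2 := by
  classical
  have : Nonempty (Iso n) := ⟨IsometryEquiv.refl _⟩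
  choose! f hf g hg hfg using hB
  have h1 : A.card ≤ (X ×ˢ X).card := by
    refine Finset.card_le_card_of_injOn (fun y' => (f y', g y')) ?_ ?_
    · intro y' hy'
      exact Finset.mem_coe.2 (Finset.mem_product.2 ⟨hf y' hy', hg y' hy'⟩)
    · intro y1 h1 y2 h2 h12
      by_contra hne
      have h3 := hsep y1 (hBY h1) y2 (hBY h2) hne
      have h4 := hfg y1 h1
      have h5 := hfg y2 h2
      have h6 : f y1 = f y2 := congrArg Prod.fst h12
      have h7 : g y1 = g y2 := congrArg Prod.snd h12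
      rw [h6, h7] at h4
      rw [← iso_norm (g y2)] at h3
      have h8 : g y2 y1 - g y2 y2 = (f y2 y - g y2 y2) - (f y2 y - g y2 y1) := by abel
      rw [h8] at h3
      have h9 := norm_sub_le (f y2 y - g y2 y2) (f y2 y - g y2 y1)
      linarith only [h3, h4, h5, h9]
  have h2 : (A.card : ℝ) ≤ (X.card : ℝ) ^ 2 := by
    have h3 : A.card ≤ X.card ^ 2 := by
      rw [sq, ← Finset.card_product]
      exact h1
    exact_mod_cast h3
  exact h2.trans (pow_le_pow_left₀ (Nat.cast_nonneg _) hX 2)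

/-- failure probability for a fixed finite family -/
theorem fixedI : ∃ n0 : ℕ, ∀ n : ℕ, n0 ≤ n → ∀ (N : ℝ), NormN n N → ∀ X : Finset (Iso n),
    (X.card : ℝ) ≤ m0 n → ∀ (D : Clus n X) (Zc : Finset (E n)),
    (∀ g, ∀ y ∈ D.Y g, ZI X y ⊆ Zc) → ∀ (ε : ℝ) (T : Type) [Fintype T] [DecidableEq T]
      (a : Atoms n Zc ε T),
      Pr (pp N a) (fun J => ∀ g, ∀ y ∈ D.Y g, ∃ z ∈ ZI X y, ∀ τ ∈ J,
        ¬ rho < inner ℝ z (a.u τ)) ≤
      Real.exp (-((7 : ℝ) ^ n * Real.exp (-((n : ℝ) + 2)))) := by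
  classical
  obtain ⟨n1, hL⟩ := evLower_main
  obtain ⟨n2, hP⟩ := evPair_main
  obtain ⟨n3, hN⟩ := numLev
  have hC := clusterProb
  have hI := clustersProb
  have hD := evDep
  have hS := suppDisj zeroCut
  refine ⟨max n1 (max n2 n3), fun n hn N hNN X hX D Zc hZc ε T _ _ a => ?_⟩
  have hn1 : n1 ≤ n := (le_max_left _ _).trans hn
  have hn2 : n2 ≤ n := (le_max_left _ _).trans ((le_max_right _ _).trans hn)
  have hn3 : n3 ≤ n := (le_max_right _ _).trans ((le_max_right _ _).trans hn)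
  obtain ⟨hlev, hHlev, -, -, -⟩ := hN n hn3
  have h0 : ∀ τ, 0 ≤ pp N a τ := BodyM.pp_nonneg hNN.1 a
  have h1 : ∀ τ, pp N a τ ≤ 1 := BodyM.pp_le_one a
  have hH0 : 0 ≤ Hmax n := by
    unfold Hmax
    have := Real.log_natCast_nonneg n
    positivity
  have hq : ∀ g, Real.exp (-((n : ℝ) + 2)) ≤
      Pr (pp N a) (fun J => ∃ y ∈ D.Y g, Ev a (ZI X y) (gam n (lev n)) J) := by
    intro g
    have hcard := D.card g
    have hm0 : 0 < m0 n := by
      unfold m0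
      positivity
    have hYpos : (0 : ℝ) < (D.Y g).card := lt_of_lt_of_le (by positivity) hcard
    have hYne : (D.Y g).Nonempty := Finset.card_pos.1 (by exact_mod_cast hYpos)
    have key := hC T (pp N a) h0 h1 (E n) (D.Y g) (lev n)
      (fun j y J => Ev a (ZI X y) (gam n j) J) (Hmax n) (m0 n ^ 2)
      (fun y y' => ∃ φ ∈ X, ∃ φ' ∈ X, ‖φ y - φ' y'‖ < bet n) hlev hH0 hYne
      (by
        intro j _ y _ J hJ z hz
        obtain ⟨τ, hτ, h2, h3⟩ := hJ z hz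
        exact ⟨τ, hτ, h2, fx_small_mono (fx_gam_mono n j) h3⟩)
      (by
        intro y hy
        have hg := D.good g y hy
        refine le_trans ?_ (hL n hn1 N hNN Zc ε T a (ZI X y) (hZc g y hy) (shellI hg))
        exact Real.exp_le_exp.2 (neg_le_neg hg.2.2))
      (by
        intro y _
        refine bad_card (D.sep g) y hX _ (Finset.filter_subset _ _) ?_
        intro y' hy'
        exact (Finset.mem_filter.1 hy').2)
      (by
        intro j hj y hy y' hy' hbad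
        refine hP n hn2 N hNN Zc ε T a (ZI X y) (ZI X y') (hZc g y hy) (hZc g y' hy')
          (shellI (D.good g y hy)) (shellI (D.good g y' hy')) ?_ j hj
        intro z hz z' hz'
        obtain ⟨⟨x, hx, rfl⟩, -⟩ := mem_ZI.1 hz
        obtain ⟨⟨x', hx', rfl⟩, -⟩ := mem_ZI.1 hz'
        by_contra hlt
        exact hbad ⟨x, hx, x', hx', not_le.1 hlt⟩)
      (by
        have h2 : Real.exp (Hmax n) * Real.exp (-Hmax n) = 1 := by
          rw [← Real.exp_add, add_neg_cancel, Real.exp_zero]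
        calc m0 n ^ 2 = m0 n ^ 2 * Real.exp (Hmax n) * Real.exp (-Hmax n) := by
              rw [mul_assoc, h2, mul_one]
          _ ≤ (D.Y g).card * Real.exp (-Hmax n) :=
              mul_le_mul_of_nonneg_right hcard (Real.exp_pos _).le)
    refine le_trans ?_ key
    apply Real.exp_le_exp.2
    linarith only [hHlev]
  have hmain := hI T (pp N a) h0 h1 (7 ^ n)
    (fun g J => ∃ y ∈ D.Y g, Ev a (ZI X y) (gam n (lev n)) J)
    (fun g => (D.Y g).biUnion (fun y => supp a (ZI X y))) (Real.exp (-((n : ℝ) + 2)))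
    (by
      intro g J J' hJJ'
      have hy : ∀ y ∈ D.Y g, (Ev a (ZI X y) (gam n (lev n)) J ↔
          Ev a (ZI X y) (gam n (lev n)) J') := by
        intro y hy
        apply hD n Zc ε T a (ZI X y) (gam n (lev n)) J J'
        have hsub : supp a (ZI X y) ⊆ (D.Y g).biUnion (fun y => supp a (ZI X y)) :=
          Finset.subset_biUnion_of_mem (fun y => supp a (ZI X y)) hy
        have h3 : J ∩ supp a (ZI X y) =
            (J ∩ (D.Y g).biUnion (fun y => supp a (ZI X y))) ∩ supp a (ZI X y) := by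
          rw [Finset.inter_assoc, Finset.inter_eq_right.2 hsub]
        have h4 : J' ∩ supp a (ZI X y) =
            (J' ∩ (D.Y g).biUnion (fun y => supp a (ZI X y))) ∩ supp a (ZI X y) := by
          rw [Finset.inter_assoc, Finset.inter_eq_right.2 hsub]
        rw [h3, h4, hJJ']
      constructor
      · rintro ⟨y, hy1, hy2⟩
        exact ⟨y, hy1, (hy y hy1).1 hy2⟩
      · rintro ⟨y, hy1, hy2⟩
        exact ⟨y, hy1, (hy y hy1).2 hy2⟩)
    (by
      intro g g' hgg'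
      rw [Finset.disjoint_biUnion_left]
      intro y hy
      rw [Finset.disjoint_biUnion_right]
      intro y' hy'
      refine hS n Zc ε T a (ZI X y) (ZI X y') (fun z hz => (mem_ZI.1 hz).2)
        (fun z hz => (mem_ZI.1 hz).2) ?_
      intro z hz z' hz'
      obtain ⟨⟨x, hx, rfl⟩, -⟩ := mem_ZI.1 hz
      obtain ⟨⟨x', hx', rfl⟩, -⟩ := mem_ZI.1 hz'
      exact D.far g g' hgg' y hy y' hy' x hx x' hx')
    hq
  push_cast at hmain
  refine le_trans (EvA.pr_mono h0 h1 ?_) hmain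
  intro J hJ g
  rintro ⟨y, hy, hev⟩
  obtain ⟨z, hz, hz2⟩ := hJ g y hy
  obtain ⟨τ, hτ, hc, -⟩ := hev z hz
  unfold cut at hc
  exact hz2 τ hτ (Finset.mem_filter.1 hc).2

/-- the union bound: nets of size `exp (n ^ 5)` are affordable -/
theorem numUnionI : ∃ n0 : ℕ, ∀ n : ℕ, n0 ≤ n → ∀ M k : ℕ, (M : ℝ) + 1 ≤ Real.exp ((n : ℝ) ^ 5) →
    (k : ℝ) ≤ m0 n →
    ((M : ℝ) + 1) ^ k * Real.exp (-((7 : ℝ) ^ n * Real.exp (-((n : ℝ) + 2)))) ≤ 1 / 100 := by
  have e1 : ∀ᶠ n : ℕ in Filter.atTop, 18 * ((n : ℝ) ^ 5 * (0.88 : ℝ) ^ n) ≤ 1 := by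
    have := (tendsto_pow_const_mul_const_pow_of_abs_lt_one 5
      (show |(0.88 : ℝ)| < 1 by norm_num [abs_lt])).const_mul 18
    rw [mul_zero] at this
    exact this.eventually_le_const (by norm_num)
  have e2 : ∀ᶠ n : ℕ in Filter.atTop, (90 : ℝ) ≤ (2.5 : ℝ) ^ n :=
    (tendsto_pow_atTop_atTop_of_one_lt (by norm_num)).eventually_ge_atTop 90
  obtain ⟨n0, hn0⟩ := Filter.eventually_atTop.mp (e1.and e2)
  refine ⟨n0, fun n hn M k a1 hk => ?_⟩
  obtain ⟨h1, h2⟩ := hn0 n hn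
  have a2 : ((M : ℝ) + 1) ^ k ≤ Real.exp (k * (n : ℝ) ^ 5) := by
    rw [Real.exp_nat_mul]
    exact pow_le_pow_left₀ (by positivity) a1 k
  have a3 : (k : ℝ) * (n : ℝ) ^ 5 ≤ (2.2 : ℝ) ^ n * (n : ℝ) ^ 5 :=
    mul_le_mul_of_nonneg_right hk (by positivity)
  have a4 : (2.2 : ℝ) ^ n * (n : ℝ) ^ 5 ≤ (2.5 : ℝ) ^ n / 18 := by
    have b1 : (2.2 : ℝ) ^ n = (0.88 : ℝ) ^ n * (2.5 : ℝ) ^ n := by
      rw [← mul_pow]; norm_num
    have b2 := mul_le_mul_of_nonneg_right h1 (show (0 : ℝ) ≤ (2.5 : ℝ) ^ n by positivity)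
    rw [b1]
    linarith only [b2]
  have a5 : (2.5 : ℝ) ^ n / 9 ≤ (7 : ℝ) ^ n * Real.exp (-((n : ℝ) + 2)) := by
    have c1 : Real.exp (-((n : ℝ) + 2)) = Real.exp (-1) ^ n * Real.exp (-1) ^ 2 := by
      rw [← Real.exp_nat_mul, ← Real.exp_nat_mul, ← Real.exp_add]; congr 1; push_cast; ring
    have c3 := Real.exp_one_lt_d9
    have c2 : (1 : ℝ) / 2.75 ≤ Real.exp (-1) := by
      rw [Real.exp_neg, one_div]
      exact inv_anti₀ (Real.exp_pos 1) (by linarith only [c3])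
    have c4 : (2.5 : ℝ) ≤ 7 * Real.exp (-1) := by
      have : (7 : ℝ) * (1 / 2.75) ≤ 7 * Real.exp (-1) := by linarith only [c2]
      refine le_trans (by norm_num) this
    have c5 : (1 : ℝ) / 9 ≤ Real.exp (-1) ^ 2 := by
      have : ((1 : ℝ) / 2.75) ^ 2 ≤ Real.exp (-1) ^ 2 := pow_le_pow_left₀ (by norm_num) c2 2
      refine le_trans (by norm_num) this
    rw [c1]
    calc (2.5 : ℝ) ^ n / 9 = (2.5 : ℝ) ^ n * (1 / 9) := by ring
      _ ≤ (7 * Real.exp (-1)) ^ n * Real.exp (-1) ^ 2 :=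
          mul_le_mul (pow_le_pow_left₀ (by norm_num) c4 n) c5 (by norm_num) (by positivity)
      _ = _ := by rw [mul_pow]; ring
  have a6 : Real.exp (-5) ≤ 1 / 100 := by
    have c3 := Real.exp_one_gt_d9
    rw [Real.exp_neg, one_div]
    refine inv_anti₀ (by norm_num) ?_
    have : Real.exp 5 = Real.exp 1 ^ 5 := by
      rw [← Real.exp_nat_mul]; norm_num
    rw [this]
    have : (2.7 : ℝ) ^ 5 ≤ Real.exp 1 ^ 5 :=
      pow_le_pow_left₀ (by norm_num) (by linarith only [c3]) 5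
    refine le_trans (by norm_num) this
  calc ((M : ℝ) + 1) ^ k * Real.exp (-((7 : ℝ) ^ n * Real.exp (-((n : ℝ) + 2))))
      ≤ Real.exp (k * (n : ℝ) ^ 5) * Real.exp (-((7 : ℝ) ^ n * Real.exp (-((n : ℝ) + 2)))) :=
        mul_le_mul_of_nonneg_right a2 (Real.exp_pos _).le
    _ = Real.exp (k * (n : ℝ) ^ 5 - (7 : ℝ) ^ n * Real.exp (-((n : ℝ) + 2))) := by
        rw [← Real.exp_add]; rfl
    _ ≤ Real.exp (-5) := by
        rw [Real.exp_le_exp]
        linarith only [a5, a4, a3, h2]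
    _ ≤ 1 / 100 := a6

/-- a point all of whose images are cut -/
theorem missI {Zc : Finset (E n)} {ε : ℝ} {T : Type} [Fintype T] (a : Atoms n Zc ε T)
    (J : Finset T) (hn : 2 ≤ n) {X : Finset (Iso n)} {y : E n}
    (h : ∀ z ∈ ZI X y, ∃ τ ∈ J, rho < inner ℝ z (a.u τ)) :
    ∀ φ ∈ X, ∀ v : E n, ‖v‖ ≤ eta n → φ y - v ∉ Stmt.body a J := by
  intro φ hφ v hv hmem
  have hη := BodyM.eta_pos hn
  have h1 : ‖φ y - v‖ ≤ 1 - eta n := hmem.1
  have h2 : ‖φ y‖ ≤ 1 := by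
    calc ‖φ y‖ = ‖(φ y - v) + v‖ := by rw [sub_add_cancel]
      _ ≤ ‖φ y - v‖ + ‖v‖ := norm_add_le _ _
      _ ≤ 1 := by linarith only [hv, h1]
  obtain ⟨τ, hτ, hlt⟩ := h _ (mem_ZI.2 ⟨⟨φ, hφ, rfl⟩, h2⟩)
  have h3 := hmem.2 τ hτ
  rw [inner_sub_left] at h3
  have h4 : inner ℝ v (a.u τ) ≤ eta n := by
    calc inner ℝ v (a.u τ) ≤ ‖v‖ * ‖a.u τ‖ := real_inner_le_norm _ _
      _ ≤ ‖v‖ * 1 := mul_le_mul_of_nonneg_left (a.u_le τ) (norm_nonneg _)
      _ ≤ eta n := by linarith only [hv]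
  linarith only [hlt, h3, h4]

open BodyM Vale.Agent.P230.H826 in
/-- a symmetric body close to the ball which no small family from the net can cover -/
theorem bodyI : ∃ n0 : ℕ, ∀ n : ℕ, n0 ≤ n → ∀ Gr : Finset (Iso n),
    (Gr.card : ℝ) + 1 ≤ Real.exp ((n : ℝ) ^ 5) →
    ∃ K : Set (E n), Convex ℝ K ∧ IsCompact K ∧ (∀ w, w ∈ K → -w ∈ K) ∧
      closedBall 0 (rho - eta n) ⊆ K ∧
      (∀ w ∈ K, ‖w‖ ≤ 1 - eta n) ∧ vol (B n) / 20 ≤ vol K ∧
      ∀ X ⊆ Gr, (X.card : ℝ) ≤ m0 n →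
        vol (B n) / 2 ≤ vol {y : E n | ‖y‖ ≤ 1 ∧ GoodI n X y} →
        ∃ y : E n, ‖y‖ ≤ 1 ∧ ∀ φ ∈ X, ∀ v : E n, ‖v‖ ≤ eta n → φ y - v ∉ K := by
  classical
  obtain ⟨nC, hC⟩ := clusterI
  obtain ⟨nF, hF⟩ := fixedI
  obtain ⟨nU, hU⟩ := numUnionI
  refine ⟨max (max nC nF) (max nU 2), fun n hn Gr hGr => ?_⟩
  have hnC : nC ≤ n := le_trans (le_trans (le_max_left _ _) (le_max_left _ _)) hn
  have hnF : nF ≤ n := le_trans (le_trans (le_max_right _ _) (le_max_left _ _)) hn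
  have hnU : nU ≤ n := le_trans (le_trans (le_max_left _ _) (le_max_right _ _)) hn
  have hn2 : 2 ≤ n := le_trans (le_trans (le_max_right _ _) (le_max_right _ _)) hn
  have hn2' : (2 : ℝ) ≤ n := by exact_mod_cast hn2
  obtain ⟨S, hS⟩ : ∃ S : Finset (Finset (Iso n)), ∀ X, X ∈ S ↔ X ⊆ Gr ∧ (X.card : ℝ) ≤ m0 n ∧
      vol (B n) / 2 ≤ vol {y : E n | ‖y‖ ≤ 1 ∧ GoodI n X y} := by
    refine ⟨Gr.powerset.filter (fun X => (X.card : ℝ) ≤ m0 n ∧
      vol (B n) / 2 ≤ vol {y : E n | ‖y‖ ≤ 1 ∧ GoodI n X y}), fun X => ?_⟩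
    rw [Finset.mem_filter, Finset.mem_powerset]
  have hD : ∀ X : S, Nonempty (Clus n X.1) := fun X =>
    hC n hnC X.1 ((hS X.1).1 X.2).2.1 ((hS X.1).1 X.2).2.2
  let D : ∀ X : S, Clus n X.1 := fun X => (hD X).some
  obtain ⟨Zc, hZc⟩ : ∃ Zc : Finset (E n), ∀ X : S, ∀ g, ∀ y ∈ (D X).Y g, ZI X.1 y ⊆ Zc := by
    refine ⟨Finset.univ.biUnion fun X : S => Finset.univ.biUnion fun g =>
      ((D X).Y g).biUnion fun y => ZI X.1 y, fun X g y hy z hz => ?_⟩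
    rw [Finset.mem_biUnion]
    refine ⟨X, Finset.mem_univ _, ?_⟩
    rw [Finset.mem_biUnion]
    refine ⟨g, Finset.mem_univ _, ?_⟩
    rw [Finset.mem_biUnion]
    exact ⟨y, hy, hz⟩
  obtain ⟨N, hNN, hNw⟩ := existsNorm capUpper capLowerPow n hn2
  have hε : (0 : ℝ) < 1 / (10 ^ 6 * n) := by positivity
  obtain ⟨k, ⟨a⟩⟩ := existsAtoms n Zc (1 / (10 ^ 6 * n)) hε
  have hp0 := pp_nonneg hNN.1 a
  have hp1 := pp_le_one (N := N) a
  have hcard : S.card ≤ (Gr.card + 1) ^ ⌊m0 n⌋₊ := by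
    apply card_small
    intro X hX
    have h1 := (hS X).1 hX
    exact ⟨h1.1, Nat.le_floor h1.2.1⟩
  have hm0 : (0 : ℝ) ≤ m0 n := by
    unfold m0
    positivity
  have hunion := hU n hnU Gr.card ⌊m0 n⌋₊ hGr (Nat.floor_le hm0)
  set q := Real.exp (-((7 : ℝ) ^ n * Real.exp (-((n : ℝ) + 2)))) with hq
  have hqc : (Fintype.card S : ℝ) * q ≤ 1 / 100 := by
    refine le_trans ?_ hunion
    apply mul_le_mul_of_nonneg_right _ (Real.exp_pos _).le
    rw [Fintype.card_coe]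
    calc (S.card : ℝ) ≤ (((Gr.card + 1) ^ ⌊m0 n⌋₊ : ℕ) : ℝ) := by exact_mod_cast hcard
      _ = ((Gr.card : ℝ) + 1) ^ ⌊m0 n⌋₊ := by push_cast; ring
  obtain ⟨J, hJ1, hJ2⟩ := exists_goodS hp0 hp1 (wtSum (Fin k) (pp N a))
    (fun (X : S) (J : Finset (Fin k)) => ∀ g, ∀ y ∈ (D X).Y g, ∃ z ∈ ZI X.1 y, ∀ τ ∈ J,
        ¬ rho < inner ℝ z (a.u τ)) q
    (fun X => hF n hnF N hNN X.1 ((hS X.1).1 X.2).2.1 (D X) Zc (hZc X) _ (Fin k) a)
    hqc (fun J => vol (sbody a J)) (vol_B_pos n)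
    (fun J => vol_le_B ((sbody_sub a J).trans (body_sub_B a J hn2)))
    (expVolS a prEmpty hn2 hNN.1 hNw)
  refine ⟨sbody a J, sbody_convex a J, sbody_compact a J, fun w hw => ?_, sbody_ball a J,
    fun w hw => ((mem_sbody a J).1 hw).1, hJ2, fun X hXG hXc hXv => ?_⟩
  · rw [mem_sbody] at hw ⊢
    refine ⟨by rw [norm_neg]; exact hw.1, fun τ hτ => ?_⟩
    rw [inner_neg_left, abs_neg]
    exact hw.2 τ hτ
  have hXS : X ∈ S := (hS X).2 ⟨hXG, hXc, hXv⟩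
  have h1 := hJ1 ⟨X, hXS⟩
  push Not at h1
  obtain ⟨g, y, hy, hz⟩ := h1
  refine ⟨y, (D ⟨X, hXS⟩).inB g y hy, fun φ hφ v hv hmem => ?_⟩
  exact missI a J hn2 hz φ hφ v hv (sbody_sub a J hmem)

end Vale.Agent.N230
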