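import Vale.Agent.N230.Win

/-!
# P230: coverings by congruent copies need density `c n log n`
-/

namespace Vale.Agent.N230

open MeasureTheory Metric Set Filter Vale.Agent.P230.LB

variable {n : ℕ}

/-- an interval of length `2 m R` is covered by `m` intervals of length `2 R` -/
theorem tile_one {m : ℕ} (hm : 1 ≤ m) {R x : ℝ} (hR : 0 < R) (hx : |x| ≤ m * R) :
    ∃ k : Fin m, |x - (2 * (k : ℕ) + 1 - m) * R| ≤ R := by
  obtain ⟨h1, h2⟩ := abs_le.1 hx
  set a : ℝ := (x + m * R) / (2 * R) with ha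
  have ha0 : 0 ≤ a := div_nonneg (by linarith only [h1]) (by linarith only [hR])
  have hx' : x = (2 * a - m) * R := by
    rw [ha]
    field_simp
    ring
  rcases lt_or_ge a m with h | h
  · refine ⟨⟨⌊a⌋₊, (Nat.floor_lt ha0).2 h⟩, ?_⟩
    have b1 : (⌊a⌋₊ : ℝ) ≤ a := Nat.floor_le ha0
    have b2 : a < ⌊a⌋₊ + 1 := Nat.lt_floor_add_one a
    have e : x - (2 * (⌊a⌋₊ : ℝ) + 1 - m) * R = (2 * (a - ⌊a⌋₊) - 1) * R := by
      rw [hx']
      ring
    simp only
    rw [e, abs_le]
    constructor <;> nlinarith only [b1, b2, hR]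
  · refine ⟨⟨m - 1, by omega⟩, ?_⟩
    simp only
    rw [Nat.cast_sub hm, Nat.cast_one, abs_le]
    constructor <;> nlinarith only [h, h2, hx', hR]

/-- large dimensions: covering any cube -/
theorem cube_large : ∃ n0 : ℕ, ∀ n : ℕ, n0 ≤ n → ∃ K : Set (E n), Convex ℝ K ∧ IsCompact K ∧
    (∀ w, w ∈ K → -w ∈ K) ∧ closedBall 0 0.9999 ⊆ K ∧ K ⊆ closedBall 0 1 ∧
    ∀ (s : Finset (Iso n)) (R : ℝ), 0 < R → (∀ z ∈ cube n R, ∃ g ∈ s, z ∈ g '' K) →
      1 / 10 ^ 11 * n * Real.log n * (2 * R) ^ n ≤ s.card * vol K := by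
  classical
  obtain ⟨n0, h⟩ := finite_lower
  refine ⟨n0, fun n hn => ?_⟩
  obtain ⟨K, h1, h2, h3, h4, h5, h6, h7⟩ := h n hn
  refine ⟨K, h1, h2, h3, h4, h5, fun s R hR hcov => ?_⟩
  obtain ⟨m, hm⟩ := exists_nat_ge ((6 * n + 2) / R)
  rw [div_le_iff₀ hR] at hm
  have hn0 : (0 : ℝ) ≤ n := Nat.cast_nonneg n
  have hm0 : (0 : ℝ) < m := by
    by_contra hc
    have : (m : ℝ) * R ≤ 0 := mul_nonpos_of_nonpos_of_nonneg (not_lt.1 hc) hR.le
    linarith only [this, hm, hn0]
  have hm1 : 1 ≤ m := by exact_mod_cast hm0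
  let v : (Fin n → Fin m) → E n := fun k =>
    WithLp.toLp 2 (fun j => (2 * (k j : ℕ) + 1 - m) * R)
  let g : Iso n × (Fin n → Fin m) → Iso n := fun p => p.1.trans (IsometryEquiv.addRight (v p.2))
  have hV := winA_V_pos n
  have hlog : 0 ≤ Real.log n := Real.log_natCast_nonneg n
  have hnot : ¬ (((s ×ˢ (Finset.univ : Finset (Fin n → Fin m))).card : ENNReal) ≤
      ENNReal.ofReal (1 / 10 ^ 9 * n * Real.log n / vol (B n)) *
        ENNReal.ofReal ((2 * (m * R + 2)) ^ n)) := by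
    intro hc
    obtain ⟨z, hz, hz2⟩ := h7 (s ×ˢ (Finset.univ : Finset (Fin n → Fin m))) g (m * R + 2)
      (by linarith only [hm]) (by linarith only [hm, hn0]) hc
    rw [add_sub_cancel_right] at hz
    choose k hk using fun j => tile_one hm1 hR (hz j)
    obtain ⟨φ, hφ, w, hw, hwz⟩ := hcov (z - v k) (fun j => hk j)
    refine hz2 (φ, k) (Finset.mem_product.2 ⟨hφ, Finset.mem_univ _⟩) ⟨w, hw, ?_⟩
    show φ w + v k = z
    rw [hwz, sub_add_cancel]
  rw [not_le, ← ENNReal.ofReal_mul (by positivity), ← ENNReal.ofReal_natCast,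
    ENNReal.ofReal_lt_ofReal_iff_of_nonneg (by positivity), Finset.card_product,
    Finset.card_univ, Fintype.card_fun, Fintype.card_fin, Fintype.card_fin] at hnot
  push_cast at hnot
  have e1 : (m : ℝ) ^ n * (2 * R) ^ n ≤ (2 * (m * R + 2)) ^ n := by
    rw [← mul_pow]
    exact pow_le_pow_left₀ (by positivity) (by linarith only []) n
  have e2 : 1 / 10 ^ 9 * n * Real.log n / vol (B n) * (2 * R) ^ n * (m : ℝ) ^ n ≤
      s.card * (m : ℝ) ^ n := by
    refine le_trans ?_ hnot.le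
    rw [mul_assoc, mul_comm ((2 * R) ^ n)]
    exact mul_le_mul_of_nonneg_left e1 (by positivity)
  have e3 := le_of_mul_le_mul_right e2 (pow_pos hm0 n)
  have e4 : 1 / 10 ^ 9 * n * Real.log n / vol (B n) * (2 * R) ^ n * (vol (B n) / 20) ≤
      s.card * vol K := mul_le_mul e3 h6 (by positivity) (Nat.cast_nonneg _)
  refine le_trans ?_ e4
  have e5 : 1 / 10 ^ 9 * n * Real.log n / vol (B n) * (2 * R) ^ n * (vol (B n) / 20) =
      1 / 20 * (1 / 10 ^ 9) * (n * Real.log n * (2 * R) ^ n) := by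
    field_simp
  rw [e5]
  have e6 : 0 ≤ n * Real.log n * (2 * R) ^ n := by positivity
  linarith only [e6]

/-- the volume bound for the ball -/
theorem cube_ball (s : Finset (Iso n)) {R : ℝ} (hR : 0 < R)
    (hcov : ∀ z ∈ cube n R, ∃ g ∈ s, z ∈ g '' closedBall (0 : E n) 1) :
    (2 * R) ^ n ≤ s.card * vol (closedBall (0 : E n) 1) := by
  have h1 : cube n R ⊆ ⋃ g ∈ s, closedBall (g 0) 1 := by
    intro z hz
    obtain ⟨g, hg, hz2⟩ := hcov z hz
    rw [g.image_closedBall] at hz2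
    exact mem_iUnion₂.2 ⟨g, hg, hz2⟩
  have h2 : vol (cube n R) ≤ ∑ g ∈ s, vol (closedBall (g 0) 1) := by
    refine (measureReal_mono (μ := (volume : Measure (E n))) h1 ?_).trans
      (measureReal_biUnion_finset_le _ _)
    refine (lt_of_le_of_lt (measure_biUnion_finset_le _ _) ?_).ne
    exact ENNReal.sum_lt_top.2 fun p _ => measure_closedBall_lt_top
  rw [Finset.sum_congr rfl fun p _ => ClusL.vol_closedBall _ zero_le_one, Finset.sum_const,
    nsmul_eq_mul, ← ClusL.vol_closedBall 0 zero_le_one] at h2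
  refine le_trans (le_of_eq ?_) h2
  unfold vol
  rw [avg_cube_vol n hR.le, ENNReal.toReal_ofReal (by positivity)]

/-- all dimensions: covering any cube -/
theorem cube_all : ∃ c : ℝ, 0 < c ∧ ∀ n : ℕ, 2 ≤ n → ∃ K : Set (E n), Convex ℝ K ∧ IsCompact K ∧
    (∀ w, w ∈ K → -w ∈ K) ∧ closedBall 0 0.9999 ⊆ K ∧ K ⊆ closedBall 0 1 ∧
    ∀ (s : Finset (Iso n)) (R : ℝ), 0 < R → (∀ z ∈ cube n R, ∃ g ∈ s, z ∈ g '' K) →
      c * n * Real.log n * (2 * R) ^ n ≤ s.card * vol K := by
  obtain ⟨n0, h⟩ := cube_large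
  have hpos : ∀ m : ℕ, 0 ≤ (m : ℝ) * Real.log m := fun m =>
    mul_nonneg (Nat.cast_nonneg m) (Real.log_natCast_nonneg m)
  have h7 : (0 : ℝ) < n0 * Real.log n0 + 1 := by
    have := hpos n0
    linarith only [this]
  set d : ℝ := 1 / ((n0 : ℝ) * Real.log n0 + 1) with hd
  have hd0 : 0 < d := by positivity
  refine ⟨min (1 / 10 ^ 11) d, lt_min (by norm_num) hd0, fun n hn => ?_⟩
  rcases le_or_gt n0 n with hle | hlt
  · obtain ⟨K, h1, h2, h3, h4, h5, h6⟩ := h n hle
    refine ⟨K, h1, h2, h3, h4, h5, fun s R hR hc => le_trans ?_ (h6 s R hR hc)⟩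
    refine mul_le_mul_of_nonneg_right ?_ (by positivity)
    rw [mul_assoc, mul_assoc]
    exact mul_le_mul_of_nonneg_right (min_le_left _ _) (hpos n)
  · refine ⟨closedBall 0 1, convex_closedBall _ _, isCompact_closedBall _ _, ?_,
      closedBall_subset_closedBall (by norm_num), subset_rfl, fun s R hR hc => ?_⟩
    · intro w hw
      rwa [mem_closedBall_zero_iff, norm_neg, ← mem_closedBall_zero_iff]
    · refine le_trans ?_ (cube_ball s hR hc)
      refine mul_le_of_le_one_left (by positivity) ?_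
      have h4 : (n : ℝ) * Real.log n ≤ n0 * Real.log n0 := by
        have h5 : (n : ℝ) ≤ n0 := by exact_mod_cast hlt.le
        have h6 : (0 : ℝ) < n := by
          have : 0 < n := by omega
          exact_mod_cast this
        exact mul_le_mul h5 (Real.log_le_log h6 h5) (Real.log_natCast_nonneg n) (by positivity)
      calc min (1 / 10 ^ 11) d * n * Real.log n = min (1 / 10 ^ 11) d * (n * Real.log n) := by
            ring
        _ ≤ d * (n * Real.log n) := mul_le_mul_of_nonneg_right (min_le_right _ _) (hpos n)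
        _ ≤ d * (n0 * Real.log n0 + 1) := by
            apply mul_le_mul_of_nonneg_left _ hd0.le
            linarith only [h4]
        _ = 1 := by
            rw [hd]
            field_simp

/-- lower density of the points `g 0`, `g ∈ G` -/
noncomputable def lowDens (G : Set (Iso n)) : ENNReal :=
  liminf (fun R : ℝ => ({g | g ∈ G ∧ ∀ i, |g 0 i| ≤ R}.encard : ENNReal) /
    ENNReal.ofReal ((2 * R) ^ n)) atTop

/-- from cubes to densities -/
theorem dens_of_cube {K : Set (E n)} (hK0 : volume K ≠ 0) (hK1 : K ⊆ closedBall 0 1) {a : ℝ}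
    (h : ∀ (s : Finset (Iso n)) (R : ℝ), 0 < R → (∀ z ∈ cube n R, ∃ g ∈ s, z ∈ g '' K) →
      a * (2 * R) ^ n ≤ s.card * vol K) (ha : 0 ≤ a)
    {G : Set (Iso n)} (hG : ∀ z, ∃ g ∈ G, z ∈ g '' K) :
    ENNReal.ofReal (a / 2) ≤ volume K * lowDens G := by
  have hKt : volume K ≠ ⊤ := ClusL.ne_top_of_bdd hK1
  rw [mul_comm, ← ENNReal.div_le_iff hK0 hKt]
  refine le_liminf_of_le (by isBoundedDefault) ?_
  filter_upwards [eventually_ge_atTop (6 * n : ℝ), eventually_gt_atTop (3 : ℝ)] with R hR2 hR3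
  have hp : 0 < (2 * R) ^ n := by
    have : 0 < R := by linarith only [hR3]
    positivity
  rw [ENNReal.div_le_iff hK0 hKt, ← ENNReal.mul_div_right_comm,
    ENNReal.le_div_iff_mul_le (Or.inl (ENNReal.ofReal_pos.2 hp).ne')
      (Or.inl ENNReal.ofReal_ne_top)]
  by_cases hf : {g | g ∈ G ∧ ∀ i, |g 0 i| ≤ R}.Finite
  · have h1 := h hf.toFinset (R - 3) (by linarith only [hR3]) (by
      intro z hz
      obtain ⟨g, hg, w, hw, hwz⟩ := hG z
      refine ⟨g, hf.mem_toFinset.2 ⟨hg, ?_⟩, w, hw, hwz⟩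
      by_contra hc
      have h2 : 3 < ‖z - g 0‖ := avg_norm_gt (R := R) hc hz
      rw [← hwz, iso_norm, sub_zero] at h2
      have h3 := mem_closedBall_zero_iff.1 (hK1 hw)
      linarith only [h2, h3])
    have h2 : a / 2 * (2 * R) ^ n ≤ hf.toFinset.card * vol K := by
      refine le_trans ?_ h1
      have h3 := mul_le_mul_of_nonneg_left (avg_pow hR2 hR3) ha
      linarith only [h3]
    rw [hf.encard_eq_coe_toFinset_card, ← ENNReal.ofReal_mul (by positivity)]
    refine (ENNReal.ofReal_le_ofReal h2).trans (le_of_eq ?_)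
    rw [ENNReal.ofReal_mul (Nat.cast_nonneg _), ENNReal.ofReal_natCast]
    unfold vol
    rw [ENNReal.ofReal_toReal hKt]
    rfl
  · rw [Set.Infinite.encard_eq hf, ENat.toENNReal_top, ENNReal.top_mul hK0]
    exact le_top

/-- translations: the lower density of the family is at most the upper density of the set -/
theorem lowDens_le (X : Set (E n)) :
    lowDens ((fun x => (IsometryEquiv.addRight x : Iso n)) '' X) ≤ upDens X := by
  have h1 : ∀ R : ℝ, {g : Iso n | g ∈ (fun x => (IsometryEquiv.addRight x : Iso n)) '' X ∧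
      ∀ i, |g 0 i| ≤ R} = (fun x => (IsometryEquiv.addRight x : Iso n)) '' (X ∩ cube n R) := by
    intro R
    ext g
    constructor
    · rintro ⟨⟨x, hx, rfl⟩, h⟩
      refine ⟨x, ⟨hx, fun i => ?_⟩, rfl⟩
      simpa using h i
    · rintro ⟨x, ⟨hx, h⟩, rfl⟩
      refine ⟨⟨x, hx, rfl⟩, fun i => ?_⟩
      simpa using h i
  have h2 : Function.Injective (fun x => (IsometryEquiv.addRight x : Iso n)) := by
    intro x y h
    have := congrArg (fun g : Iso n => g 0) h
    simpa using this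
  unfold lowDens upDens
  simp only [h1, h2.encard_image]
  exact liminf_le_limsup

end Vale.Agent.N230
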