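import Vale.Agent.N230.Iso
import Mathlib.Analysis.Normed.Affine.MazurUlam

/-!
# P230: nets of isometries, the window, and the lower bound for coverings by congruent copies
-/

namespace Vale.Agent.N230

open MeasureTheory Metric Set Filter Vale.Agent.P230.LB

variable {n : ℕ}

theorem iso_affine (φ : Iso n) (y : E n) :
    φ y - φ 0 = ∑ i, y i • (φ (EuclideanSpace.single i 1) - φ 0) := by
  have h1 : y = ∑ i, y i • EuclideanSpace.single i (1 : ℝ) := by
    ext j
    simp [Finset.sum_apply, Pi.single_apply]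
  have h2 := IsometryEquiv.toRealLinearIsometryEquiv_apply φ
  rw [← h2 y]
  conv_lhs => rw [h1]
  rw [map_sum]
  refine Finset.sum_congr rfl fun i _ => ?_
  rw [map_smul, h2]

theorem net_num (hn : 145 ≤ n) :
    ((1 + 2 * 3 / (1 / (12 * (n : ℝ) ^ 2))) ^ n) ^ (n + 1) + 1 ≤ Real.exp ((n : ℝ) ^ 5) := by
  have hn' : (145 : ℝ) ≤ n := by exact_mod_cast hn
  have h0 : (0 : ℝ) < n := by linarith only [hn']
  have e1 : 1 + 2 * 3 / (1 / (12 * (n : ℝ) ^ 2)) = 72 * (n : ℝ) ^ 2 + 1 := by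
    field_simp
    ring
  have e2 : (72 * (n : ℝ) ^ 2 + 1) ≤ Real.exp (72 * (n : ℝ) ^ 2) := Real.add_one_le_exp _
  have e3 : ((72 * (n : ℝ) ^ 2 + 1) ^ n) ^ (n + 1) ≤
      Real.exp (((n + 1 : ℕ) : ℝ) * (n * (72 * (n : ℝ) ^ 2))) := by
    rw [Real.exp_nat_mul, Real.exp_nat_mul]
    exact pow_le_pow_left₀ (by positivity) (pow_le_pow_left₀ (by positivity) e2 n) _
  set a : ℝ := ((n + 1 : ℕ) : ℝ) * (n * (72 * (n : ℝ) ^ 2)) with ha
  have ha0 : 0 ≤ a := by positivity
  have e4 : Real.exp a + 1 ≤ Real.exp (a + 1) := by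
    rw [Real.exp_add]
    have h1 : 1 ≤ Real.exp a := Real.one_le_exp ha0
    have h2 : (1 : ℝ) + 1 ≤ Real.exp 1 := Real.add_one_le_exp 1
    nlinarith only [h1, h2]
  have e5 : a + 1 ≤ (n : ℝ) ^ 5 := by
    rw [ha]
    push_cast
    have h4 : (1 : ℝ) ≤ (n : ℝ) ^ 4 := one_le_pow₀ (by linarith only [hn'])
    have h3 : (n : ℝ) ^ 3 ≤ (n : ℝ) ^ 4 := pow_le_pow_right₀ (by linarith only [hn']) (by norm_num)
    have h5 : 145 * (n : ℝ) ^ 4 ≤ (n : ℝ) ^ 5 := by
      have : (n : ℝ) ^ 5 = n * (n : ℝ) ^ 4 := by ring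
      rw [this]
      exact mul_le_mul_of_nonneg_right hn' (by positivity)
    have h6 : ((n : ℝ) + 1) * (n * (72 * (n : ℝ) ^ 2)) = 72 * (n : ℝ) ^ 4 + 72 * (n : ℝ) ^ 3 := by
      ring
    rw [h6]
    linarith only [h4, h3, h5]
  rw [e1]
  exact (add_le_add e3 le_rfl).trans (e4.trans (Real.exp_le_exp.2 e5))

/-- a finite net of isometries -/
theorem netI (hn : 145 ≤ n) : ∃ Gr : Finset (Iso n), (Gr.card : ℝ) + 1 ≤ Real.exp ((n : ℝ) ^ 5) ∧
    ∀ φ : Iso n, ‖φ 0‖ ≤ 2 → ∃ ψ ∈ Gr, ∀ y : E n, ‖y‖ ≤ 1 → ‖ψ y - φ y‖ ≤ eta n := by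
  classical
  have hn' : (145 : ℝ) ≤ n := by exact_mod_cast hn
  have h0 : (0 : ℝ) < n := by linarith only [hn']
  set ε : ℝ := 1 / (12 * (n : ℝ) ^ 2) with hε
  have hε0 : 0 < ε := by positivity
  obtain ⟨G0, hG1, -, hG3⟩ := netLemma n (by omega) 3 ε (by norm_num) hε0
  have hex : ∀ x : E n, ∃ g : E n, ‖x‖ ≤ 3 → g ∈ G0 ∧ ‖x - g‖ ≤ ε := by
    intro x
    by_cases hx : ‖x‖ ≤ 3
    · obtain ⟨g, hg, hg'⟩ := hG3 x hx
      exact ⟨g, fun _ => ⟨hg, hg'⟩⟩
    · exact ⟨0, fun h' => absurd h' hx⟩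
  choose r hr using hex
  let v : Option (Fin n) → E n := fun o => o.elim 0 (fun i => EuclideanSpace.single i 1)
  have hv : ∀ o, ‖v o‖ ≤ 1 := by
    rintro (_ | i)
    · simp [v]
    · simp [v]
  have h3 : ∀ φ : Iso n, ‖φ 0‖ ≤ 2 → ∀ o, ‖φ (v o)‖ ≤ 3 := by
    intro φ hφ o
    have h1 := norm_add_le (φ (v o) - φ 0) (φ 0)
    rw [sub_add_cancel, iso_norm, sub_zero] at h1
    linarith only [h1, hv o, hφ]
  let sig : Iso n → Option (Fin n) → E n := fun φ o => r (φ (v o))
  have hrep : ∀ s : Option (Fin n) → E n, ∃ ψ : Iso n,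
      (∃ φ : Iso n, ‖φ 0‖ ≤ 2 ∧ sig φ = s) → ‖ψ 0‖ ≤ 2 ∧ sig ψ = s := by
    intro s
    by_cases h : ∃ φ : Iso n, ‖φ 0‖ ≤ 2 ∧ sig φ = s
    · obtain ⟨φ, hφ⟩ := h
      exact ⟨φ, fun _ => hφ⟩
    · exact ⟨IsometryEquiv.refl _, fun h' => absurd h' h⟩
  choose rep hrep using hrep
  refine ⟨(Fintype.piFinset fun _ : Option (Fin n) => G0).image rep, ?_, fun φ hφ => ?_⟩
  · refine le_trans (add_le_add ?_ le_rfl) (net_num hn)
    have h1 : ((Fintype.piFinset fun _ : Option (Fin n) => G0).image rep).card ≤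
        G0.card ^ (n + 1) := by
      refine Finset.card_image_le.trans (le_of_eq ?_)
      rw [Fintype.card_piFinset]
      simp
    calc _ ≤ ((G0.card ^ (n + 1) : ℕ) : ℝ) := by exact_mod_cast h1
      _ = (G0.card : ℝ) ^ (n + 1) := by push_cast; rfl
      _ ≤ _ := pow_le_pow_left₀ (Nat.cast_nonneg _) hG1 _
  · obtain ⟨hψ0, hψ⟩ := hrep (sig φ) ⟨φ, hφ, rfl⟩
    set ψ := rep (sig φ) with hψd
    refine ⟨ψ, Finset.mem_image_of_mem rep ?_, fun y hy => ?_⟩
    · rw [Fintype.mem_piFinset]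
      exact fun o => (hr _ (h3 φ hφ o)).1
    have hclose : ∀ o, ‖ψ (v o) - φ (v o)‖ ≤ 2 * ε := by
      intro o
      have h1 := (hr _ (h3 φ hφ o)).2
      have h2 := (hr _ (h3 ψ hψ0 o)).2
      have h4 : r (ψ (v o)) = r (φ (v o)) := congrFun hψ o
      rw [h4] at h2
      have h5 : ψ (v o) - φ (v o) = (ψ (v o) - r (φ (v o))) - (φ (v o) - r (φ (v o))) := by abel
      rw [h5]
      exact (norm_sub_le _ _).trans (by linarith only [h1, h2])
    have hz : ‖ψ 0 - φ 0‖ ≤ 2 * ε := hclose none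
    have e1 : ψ y - φ y = (ψ 0 - φ 0) + ∑ i, y i • ((ψ (EuclideanSpace.single i 1) -
        φ (EuclideanSpace.single i 1)) - (ψ 0 - φ 0)) := by
      have a1 := iso_affine ψ y
      have a2 := iso_affine φ y
      have a3 : ψ y - φ y = (ψ 0 - φ 0) + ((ψ y - ψ 0) - (φ y - φ 0)) := by abel
      rw [a3, a1, a2, ← Finset.sum_sub_distrib]
      congr 1
      refine Finset.sum_congr rfl fun i _ => ?_
      rw [← smul_sub]
      congr 1
      abel
    have e2 : ‖∑ i, y i • ((ψ (EuclideanSpace.single i 1) -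
        φ (EuclideanSpace.single i 1)) - (ψ 0 - φ 0))‖ ≤ ∑ _i : Fin n, 4 * ε := by
      refine (norm_sum_le _ _).trans (Finset.sum_le_sum fun i _ => ?_)
      rw [norm_smul]
      have b1 : ‖y i‖ ≤ 1 := (PiLp.norm_apply_le y i).trans hy
      have b2 : ‖ψ (EuclideanSpace.single i 1) - φ (EuclideanSpace.single i 1)‖ ≤ 2 * ε :=
        hclose (some i)
      have b3 := norm_sub_le (ψ (EuclideanSpace.single i 1) - φ (EuclideanSpace.single i 1))
        (ψ 0 - φ 0)
      calc _ ≤ 1 * (4 * ε) :=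
            mul_le_mul b1 (by linarith only [b2, b3, hz]) (norm_nonneg _) zero_le_one
        _ = 4 * ε := one_mul _
    rw [Finset.sum_const, Finset.card_univ, Fintype.card_fin, nsmul_eq_mul] at e2
    have e3 : 2 * ε + n * (4 * ε) ≤ eta n := by
      have c1 : 2 * ε + n * (4 * ε) ≤ 6 * n * ε := by nlinarith only [hε0, hn']
      have c2 : 6 * n * ε = eta n := by
        rw [hε]
        unfold eta
        field_simp
        ring
      linarith only [c1, c2]
    rw [e1]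
    exact (norm_add_le _ _).trans (by linarith only [hz, e2, e3])

/-- averaging over the translates of a window -/
theorem avgF {ι : Type} (s : Finset ι) (c : ι → E n) {R : ℝ} (hR2 : 6 * n ≤ R) (hR3 : 3 < R)
    {D0 : ENNReal} (hcard : (s.card : ENNReal) ≤ D0 * ENNReal.ofReal ((2 * R) ^ n))
    {g : E n → ENNReal} (hg : Measurable g) (hsmall : 2 * D0 * ∫⁻ v, g v < 1) :
    ∃ t ∈ cube n (R - 3), ∑ i ∈ s, g (t - c i) < 1 := by
  by_contra hcon
  push Not at hcon
  have hpos3 : 0 < (2 * (R - 3)) ^ n := by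
    have : 0 < R - 3 := by linarith only [hR3]
    positivity
  have h1 : ENNReal.ofReal ((2 * (R - 3)) ^ n) ≤ (s.card : ENNReal) * ∫⁻ v, g v := by
    calc ENNReal.ofReal ((2 * (R - 3)) ^ n)
        = ∫⁻ _t in cube n (R - 3), 1 := by
          rw [setLIntegral_one, avg_cube_vol n (by linarith only [hR3])]
      _ ≤ ∫⁻ t in cube n (R - 3), ∑ i ∈ s, g (t - c i) :=
          setLIntegral_mono' (avg_cube_meas n _) fun t ht => hcon t ht
      _ ≤ ∫⁻ t, ∑ i ∈ s, g (t - c i) := setLIntegral_le_lintegral _ _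
      _ = ∑ i ∈ s, ∫⁻ t, g (t - c i) :=
          lintegral_finsetSum _ fun i _ => hg.comp (measurable_id.sub_const _)
      _ = ∑ _i ∈ s, ∫⁻ v, g v :=
          Finset.sum_congr rfl fun i _ => lintegral_sub_right_eq_self g _
      _ = (s.card : ENNReal) * ∫⁻ v, g v := by rw [Finset.sum_const, nsmul_eq_mul]
  have h2 : ENNReal.ofReal ((2 * (R - 3)) ^ n) ≤
      ENNReal.ofReal ((2 * (R - 3)) ^ n) * (2 * D0 * ∫⁻ v, g v) := by
    calc ENNReal.ofReal ((2 * (R - 3)) ^ n)
        ≤ (s.card : ENNReal) * ∫⁻ v, g v := h1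
      _ ≤ (D0 * ENNReal.ofReal ((2 * R) ^ n)) * ∫⁻ v, g v := by gcongr
      _ ≤ (D0 * ENNReal.ofReal (2 * (2 * (R - 3)) ^ n)) * ∫⁻ v, g v := by
          gcongr
          exact avg_pow hR2 hR3
      _ = ENNReal.ofReal ((2 * (R - 3)) ^ n) * (2 * D0 * ∫⁻ v, g v) := by
          rw [ENNReal.ofReal_mul (by norm_num : (0 : ℝ) ≤ 2), ENNReal.ofReal_ofNat]
          ring
  have h3 : ENNReal.ofReal ((2 * (R - 3)) ^ n) * (2 * D0 * ∫⁻ v, g v) <
      ENNReal.ofReal ((2 * (R - 3)) ^ n) * 1 :=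
    ENNReal.mul_lt_mul_right (ENNReal.ofReal_pos.2 hpos3).ne' ENNReal.ofReal_ne_top hsmall
  rw [mul_one] at h3
  exact absurd h2 (not_le.2 h3)

open Classical in
/-- pointwise consequences of a small weight -/
theorem pointF (hn : 3 ≤ n) {ι : Type} (F : Finset ι) (w : ι → E n)
    (hy : ∑ i ∈ F, winH n (w i) < 1) :
    (∀ i ∈ F, r1 n + eta n ≤ ‖w i‖) ∧
      (F.filter (fun i => ‖w i‖ ≤ 1 + eta n)).card ≤ n ^ 2 ∧
      ∑ i ∈ F.filter (fun i => ‖w i‖ ≤ 1 + eta n),
        (3 + C1 * n * (1 + eta n - ‖w i‖)) ≤ Hmax n := by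
  obtain ⟨h1, h2, h3, -, h5, h6⟩ := winA_basic n hn
  have hn' : (3 : ℝ) ≤ n := by exact_mod_cast hn
  have h0 : (0 : ℝ) < n := by linarith only [hn']
  have hC : 0 ≤ C1 := by unfold C1; norm_num
  refine ⟨fun i hi => ?_, ?_⟩
  · by_contra hcon
    push Not at hcon
    have h7 : winH n (w i) ≤ ∑ i ∈ F, winH n (w i) :=
      Finset.single_le_sum (f := fun i => winH n (w i)) (fun _ _ => zero_le) hi
    have h8 : 1 ≤ winH n (w i) := by
      unfold winH
      rw [indicator_of_mem (show w i ∈ {w : E n | ‖w‖ < r1 n + eta n} from hcon)]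
      exact le_self_add
    exact absurd ((h8.trans h7).trans_lt hy) (lt_irrefl _)
  · set F' := F.filter (fun i => ‖w i‖ ≤ 1 + eta n) with hF'
    have h7 : ∑ i ∈ F', winH n (w i) ≤ ∑ i ∈ F, winH n (w i) :=
      Finset.sum_le_sum_of_subset (Finset.filter_subset _ _)
    have hpos : ∀ i ∈ F', 0 ≤ 3 + C1 * n * (1 + eta n - ‖w i‖) := fun i hi => by
      have := (Finset.mem_filter.1 hi).2
      have h9 : 0 ≤ C1 * n * (1 + eta n - ‖w i‖) :=
        mul_nonneg (by positivity) (by linarith only [this])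
      linarith only [h9]
    have h8 : ENNReal.ofReal (∑ i ∈ F', (1 / (n : ℝ) ^ 2 +
        (3 + C1 * n * (1 + eta n - ‖w i‖)) / Hmax n)) < 1 := by
      rw [ENNReal.ofReal_sum_of_nonneg]
      · refine lt_of_le_of_lt (le_trans ?_ h7) hy
        refine Finset.sum_le_sum fun i hi => ?_
        unfold winH
        rw [indicator_of_mem (s := {w : E n | ‖w‖ ≤ 1 + eta n})
          (show w i ∈ {w : E n | ‖w‖ ≤ 1 + eta n} from (Finset.mem_filter.1 hi).2)]
        exact le_add_self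
      · intro i hi
        have := hpos i hi
        positivity
    have h9 : ∑ i ∈ F', (1 / (n : ℝ) ^ 2 +
        (3 + C1 * n * (1 + eta n - ‖w i‖)) / Hmax n) < 1 := by
      by_contra hcon
      push Not at hcon
      have := ENNReal.ofReal_le_ofReal hcon
      rw [ENNReal.ofReal_one] at this
      exact absurd (this.trans_lt h8) (lt_irrefl _)
    rw [Finset.sum_add_distrib, Finset.sum_const, nsmul_eq_mul, ← Finset.sum_div] at h9
    set S := ∑ i ∈ F', (3 + C1 * n * (1 + eta n - ‖w i‖)) with hS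
    have hS0 : 0 ≤ S := Finset.sum_nonneg hpos
    have h10 : 0 ≤ S / Hmax n := by positivity
    have h11 : (0 : ℝ) ≤ F'.card * (1 / (n : ℝ) ^ 2) := by positivity
    constructor
    · have h12 : (F'.card : ℝ) * (1 / (n : ℝ) ^ 2) ≤ 1 := by linarith only [h9, h10]
      rw [mul_one_div, div_le_one (by positivity)] at h12
      exact_mod_cast h12
    · have h12 : S / Hmax n ≤ 1 := by linarith only [h9, h11]
      rwa [div_le_one h5] at h12

open Classical in
/-- the choice of the window -/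
theorem windowF : ∃ n0 : ℕ, ∀ n : ℕ, n0 ≤ n → ∀ {ι : Type} (s : Finset ι) (c : ι → E n) (R : ℝ),
    6 * n ≤ R → 3 < R → (s.card : ENNReal) ≤
      ENNReal.ofReal (1 / 10 ^ 9 * n * Real.log n / vol (B n)) * ENNReal.ofReal ((2 * R) ^ n) →
    ∃ t ∈ cube n (R - 3), ((s.filter (fun i => ‖t - c i‖ ≤ 2)).card : ℝ) ≤ m0 n ∧
      vol (B n) / 2 ≤ vol {y : E n | ‖y‖ ≤ 1 ∧ ∑ i ∈ s, winH n (y + (t - c i)) < 1} := by
  obtain ⟨n1, hn1⟩ := winA_first
  refine ⟨max n1 3, fun n hn ι s c R hR2 hR3 hD => ?_⟩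
  have hn3 : 3 ≤ n := (le_max_right _ _).trans hn
  have hnum := hn1 n ((le_max_left _ _).trans hn)
  have hS := winA_S_le n hn3
  obtain ⟨h1, h2, h3, h4, h5, h6⟩ := winA_basic n hn3
  have hn' : (3 : ℝ) ≤ n := by exact_mod_cast hn3
  have h0 : (0 : ℝ) < n := by linarith only [hn']
  have hV := winA_V_pos n
  set V := vol (B n) with hVdef
  set lam : ℝ := 1 / 10 ^ 9 * n * Real.log n with hlam
  have hlam0 : 0 < lam := by positivity
  have hm0 : 0 < m0 n := by unfold m0; positivity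
  have hC : 0 ≤ C1 := by unfold C1; norm_num
  have hS0 : 0 ≤ winS n := by
    unfold winS
    positivity
  have hVe : volume (B n) = ENNReal.ofReal V := (winA_ofReal_V n).symm
  have hI : 2 * ENNReal.ofReal (lam / V) * ∫⁻ v, winG n v < 1 := by
    rw [winA_intG n]
    have hH := winA_intH n h1 h2.le h5
    rw [hVe] at hH ⊢
    change _ ≤ ENNReal.ofReal (winS n) * ENNReal.ofReal V at hH
    calc 2 * ENNReal.ofReal (lam / V) * (ENNReal.ofReal (1 / m0 n) *
          (ENNReal.ofReal (2 ^ n) * ENNReal.ofReal V) + 2 * ∫⁻ w : E n, winH n w)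
        ≤ 2 * ENNReal.ofReal (lam / V) * (ENNReal.ofReal (1 / m0 n) *
          (ENNReal.ofReal (2 ^ n) * ENNReal.ofReal V) +
            2 * (ENNReal.ofReal (winS n) * ENNReal.ofReal V)) := by gcongr
      _ = ENNReal.ofReal (2 * lam * (2 ^ n / m0 n) + 4 * lam * winS n) := by
          have e2 : (2 : ENNReal) = ENNReal.ofReal 2 := by simp
          rw [e2, ← ENNReal.ofReal_mul (by norm_num), ← ENNReal.ofReal_mul (by positivity),
            ← ENNReal.ofReal_mul (by positivity), ← ENNReal.ofReal_mul hS0,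
            ← ENNReal.ofReal_mul (by norm_num), ← ENNReal.ofReal_add (by positivity)
              (by positivity), ← ENNReal.ofReal_mul (by positivity)]
          congr 1
          field_simp
          ring
      _ < ENNReal.ofReal 1 := by
          rw [ENNReal.ofReal_lt_ofReal_iff one_pos]
          linarith only [hnum, hS]
      _ = 1 := ENNReal.ofReal_one
  obtain ⟨t, htc, ht⟩ := avgF s c hR2 hR3 hD (winA_measG n) hI
  refine ⟨t, htc, ?_, ?_⟩
  · set F := s.filter (fun i => ‖t - c i‖ ≤ 2) with hF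
    have a1 : ∑ i ∈ F, winG n (t - c i) ≤ ∑ i ∈ s, winG n (t - c i) :=
      Finset.sum_le_sum_of_subset (Finset.filter_subset _ _)
    have a2 : (F.card : ENNReal) * ENNReal.ofReal (1 / m0 n) ≤ ∑ i ∈ F, winG n (t - c i) := by
      rw [← nsmul_eq_mul, ← Finset.sum_const]
      refine Finset.sum_le_sum fun i hi => ?_
      unfold winG
      rw [indicator_of_mem (show t - c i ∈ {v : E n | ‖v‖ ≤ 2} from (Finset.mem_filter.1 hi).2)]
      exact le_self_add
    have a3 : (F.card : ENNReal) * ENNReal.ofReal (1 / m0 n) < 1 := (a2.trans a1).trans_lt ht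
    have a4 : ENNReal.ofReal (F.card * (1 / m0 n)) < 1 := by
      rwa [ENNReal.ofReal_mul (by positivity), ENNReal.ofReal_natCast]
    have a5 : (F.card : ℝ) * (1 / m0 n) < 1 := by
      by_contra hcon
      push Not at hcon
      have := ENNReal.ofReal_le_ofReal hcon
      rw [ENNReal.ofReal_one] at this
      exact absurd (this.trans_lt a4) (lt_irrefl _)
    rw [mul_one_div, div_lt_one hm0] at a5
    exact a5.le
  · set Φ : E n → ENNReal := fun y => ∑ i ∈ s, winH n (y + (t - c i)) with hΦ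
    have mterm : ∀ i, Measurable fun y : E n => winH n (y + (t - c i)) := fun i =>
      (winA_measH n).comp (measurable_id.add_const _)
    have mΦ : Measurable Φ := Finset.measurable_sum _ fun i _ => mterm i
    have b1 : ∫⁻ y in B n, Φ y = ∑ i ∈ s, ∫⁻ y in B n, winH n (y + (t - c i)) :=
      lintegral_finsetSum _ fun i _ => mterm i
    have b2 : ENNReal.ofReal (2 / V) * ∫⁻ y in B n, Φ y < 1 := by
      rw [b1, Finset.mul_sum]
      refine lt_of_le_of_lt (Finset.sum_le_sum fun i _ => ?_) ht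
      unfold winG
      exact le_add_self
    have b3 : ∫⁻ y in B n, Φ y ≤ ENNReal.ofReal (V / 2) := by
      have e1 : ENNReal.ofReal (V / 2) * ENNReal.ofReal (2 / V) = 1 := by
        rw [← ENNReal.ofReal_mul (by positivity)]
        have : V / 2 * (2 / V) = 1 := by field_simp
        rw [this, ENNReal.ofReal_one]
      calc ∫⁻ y in B n, Φ y = ENNReal.ofReal (V / 2) *
            (ENNReal.ofReal (2 / V) * ∫⁻ y in B n, Φ y) := by
            rw [← mul_assoc, e1, one_mul]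
        _ ≤ ENNReal.ofReal (V / 2) * 1 := by gcongr
        _ = _ := mul_one _
    have b4 : volume (B n ∩ {y | 1 ≤ Φ y}) ≤ ENNReal.ofReal (V / 2) := by
      have c1 := mul_meas_ge_le_lintegral (μ := volume.restrict (B n)) mΦ 1
      rw [one_mul, Measure.restrict_apply (measurableSet_le measurable_const mΦ), inter_comm] at c1
      exact c1.trans b3
    have b5 : volume (B n) ≤ volume (B n ∩ {y | Φ y < 1}) + ENNReal.ofReal (V / 2) := by
      refine le_trans (le_trans (measure_mono ?_) (measure_union_le (B n ∩ {y | Φ y < 1})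
        (B n ∩ {y | 1 ≤ Φ y}))) (add_le_add le_rfl b4)
      intro y hy
      rcases lt_or_ge (Φ y) 1 with h | h
      · exact Or.inl ⟨hy, h⟩
      · exact Or.inr ⟨hy, h⟩
    have b6 : ENNReal.ofReal (V / 2) ≤ volume (B n ∩ {y | Φ y < 1}) := by
      rw [hVe] at b5
      have e1 : ENNReal.ofReal V = ENNReal.ofReal (V / 2) + ENNReal.ofReal (V / 2) := by
        rw [← ENNReal.ofReal_add (by positivity) (by positivity)]
        congr 1
        ring
      rw [e1] at b5
      exact (ENNReal.add_le_add_iff_right ENNReal.ofReal_ne_top).1 b5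
    have hne : volume (B n ∩ {y | Φ y < 1}) ≠ ⊤ :=
      ne_top_of_le_ne_top (winA_B_ne_top n) (measure_mono inter_subset_left)
    exact (ENNReal.ofReal_le_iff_le_toReal hne).1 b6

open Classical in
/-- rounding keeps good points good -/
theorem roundF (hn : 3 ≤ n) {ι : Type} (F : Finset ι) (w : ι → E n) (ψ : ι → Iso n) {y : E n}
    (hy : ∑ i ∈ F, winH n (w i) < 1) (hψ : ∀ i ∈ F, ‖w i‖ ≤ ‖ψ i y‖ + eta n) :
    GoodI n (F.image ψ) y := by
  obtain ⟨hy2, hy3, hy4⟩ := pointF hn F w hy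
  have hn0 : 0 ≤ (n : ℝ) := Nat.cast_nonneg n
  have hC1 : 0 ≤ C1 * n := mul_nonneg (by unfold C1; norm_num) hn0
  have hZ : ZI (F.image ψ) y = (F.filter (fun i => ‖ψ i y‖ ≤ 1)).image (fun i => ψ i y) := by
    ext z
    simp only [ZI, Finset.mem_filter, Finset.mem_image]
    constructor
    · rintro ⟨⟨g, ⟨x, hx, rfl⟩, rfl⟩, hz⟩
      exact ⟨x, ⟨hx, hz⟩, rfl⟩
    · rintro ⟨x, ⟨hx, hz⟩, rfl⟩
      exact ⟨⟨ψ x, ⟨x, hx, rfl⟩, rfl⟩, hz⟩
  have hsub : F.filter (fun i => ‖ψ i y‖ ≤ 1) ⊆ F.filter (fun i => ‖w i‖ ≤ 1 + eta n) := by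
    intro x hx
    rw [Finset.mem_filter] at hx ⊢
    exact ⟨hx.1, (hψ x hx.1).trans (by linarith only [hx.2])⟩
  refine ⟨?_, ?_, ?_⟩
  · intro g hg
    obtain ⟨x, hx, rfl⟩ := Finset.mem_image.1 hg
    have h1 := hy2 x hx
    have h2 := hψ x hx
    linarith only [h1, h2]
  · rw [hZ]
    exact Finset.card_image_le.trans ((Finset.card_le_card hsub).trans hy3)
  · rw [hZ]
    refine (wb_sum_image _ _ _ ?_).trans ?_
    · intro x hx
      have h1 := (Finset.mem_filter.1 hx).2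
      have h2 := mul_nonneg hC1 (sub_nonneg.2 h1)
      linarith only [h2]
    · refine (Finset.sum_le_sum (g := fun x => 3 + C1 * n * (1 + eta n - ‖w x‖))
        ?_).trans ((Finset.sum_le_sum_of_subset_of_nonneg hsub ?_).trans hy4)
      · intro x hx
        have h1 := hψ x (Finset.mem_filter.1 hx).1
        have h2 : 1 - ‖ψ x y‖ ≤ 1 + eta n - ‖w x‖ := by linarith only [h1]
        have h3 := mul_le_mul_of_nonneg_left h2 hC1
        linarith only [h3]
      · intro x hx _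
        have h1 := (Finset.mem_filter.1 hx).2
        have h2 := mul_nonneg hC1 (sub_nonneg.2 h1)
        linarith only [h2]

/-- The finite form of the lower bound: a symmetric body close to the ball such that every
family of congruent copies with few centres in a large cube leaves a point of a slightly smaller
cube uncovered. -/
theorem finite_lower : ∃ n0 : ℕ, ∀ n : ℕ, n0 ≤ n → ∃ K : Set (E n), Convex ℝ K ∧ IsCompact K ∧
    (∀ w, w ∈ K → -w ∈ K) ∧ closedBall 0 0.9999 ⊆ K ∧ K ⊆ closedBall 0 1 ∧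
    vol (B n) / 20 ≤ vol K ∧
    ∀ {ι : Type} (s : Finset ι) (g : ι → Iso n) (R : ℝ), 6 * n ≤ R → 3 < R → (s.card : ENNReal) ≤
      ENNReal.ofReal (1 / 10 ^ 9 * n * Real.log n / vol (B n)) * ENNReal.ofReal ((2 * R) ^ n) →
      ∃ z ∈ cube n (R - 2), ∀ i ∈ s, z ∉ g i '' K := by
  classical
  obtain ⟨n1, hB⟩ := bodyI
  obtain ⟨n2, hW⟩ := windowF
  refine ⟨max n1 (max n2 10000), fun n hn => ?_⟩
  have hn1 : n1 ≤ n := (le_max_left _ _).trans hn
  have hn2 : n2 ≤ n := ((le_max_left _ _).trans (le_max_right _ _)).trans hn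
  have hn4 : 10000 ≤ n := ((le_max_right _ _).trans (le_max_right _ _)).trans hn
  have hnR4 : (10000 : ℝ) ≤ n := by exact_mod_cast hn4
  have heta : 0 < eta n := by unfold eta; positivity
  have heta4 : eta n ≤ 1 / 20000 := by
    unfold eta
    apply one_div_le_one_div_of_le (by norm_num)
    linarith only [hnR4]
  obtain ⟨Gr, hGc, hGn⟩ := netI (n := n) (by omega)
  obtain ⟨K, hKc, hKk, hKs, hKb, hKn, hKv, hK⟩ := hB n hn1 Gr hGc
  refine ⟨K, hKc, hKk, hKs, ?_, ?_, hKv, fun {ι} s g R hR2 hR3 hD => ?_⟩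
  · refine (closedBall_subset_closedBall ?_).trans hKb
    unfold rho
    norm_num
    linarith only [heta4]
  · intro w hw
    rw [mem_closedBall_zero_iff]
    linarith only [hKn w hw, heta]
  obtain ⟨t, htc, hF1, hF2⟩ := hW n hn2 s (fun i => g i 0) R hR2 hR3 hD
  set F := s.filter (fun i => ‖t - g i 0‖ ≤ 2) with hF
  let φ : ι → Iso n := fun i => (IsometryEquiv.addRight t).trans (g i).symm
  have hφ : ∀ i y, φ i y = (g i).symm (y + t) := fun i y => rfl
  have hφn : ∀ i y, ‖φ i y‖ = ‖y + (t - g i 0)‖ := by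
    intro i y
    have h1 := iso_norm (g i) (φ i y) 0
    rw [hφ, (g i).apply_symm_apply, sub_zero] at h1
    rw [hφ, ← h1, add_sub_assoc]
  have hex : ∀ i, ∃ ψ : Iso n, i ∈ F → ψ ∈ Gr ∧ ∀ y : E n, ‖y‖ ≤ 1 → ‖ψ y - φ i y‖ ≤ eta n := by
    intro i
    by_cases hi : i ∈ F
    · obtain ⟨ψ, h1, h2⟩ := hGn (φ i) (by
        rw [hφn, zero_add]
        exact (Finset.mem_filter.1 hi).2)
      exact ⟨ψ, fun _ => ⟨h1, h2⟩⟩
    · exact ⟨IsometryEquiv.refl _, fun h' => absurd h' hi⟩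
  choose ψ hψ using hex
  obtain ⟨y, hy1, hy2⟩ := hK (F.image ψ) (by
      intro x hx
      obtain ⟨i, hi, rfl⟩ := Finset.mem_image.1 hx
      exact (hψ i hi).1)
    (le_trans (by exact_mod_cast Finset.card_image_le) hF1)
    (hF2.trans (wb_vol_mono (by
      rintro y ⟨hy1, hy2⟩
      refine ⟨hy1, roundF (by omega) F (fun i => y + (t - g i 0)) ψ
        (lt_of_le_of_lt (Finset.sum_le_sum_of_subset (Finset.filter_subset _ _)) hy2) ?_⟩
      intro i hi
      have h1 := (hψ i hi).2 y hy1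
      have h2 := norm_sub_le (ψ i y) (ψ i y - φ i y)
      rw [sub_sub_cancel, hφn] at h2
      linarith only [h1, h2]) (fun y hy => hy.1)))
  refine ⟨y + t, fun j => ?_, fun i hi => ?_⟩
  · have h1 : |t j| ≤ R - 3 := htc j
    have h2 : |y j| ≤ 1 := (side_abs_apply_le y j).trans hy1
    have h3 : (y + t) j = y j + t j := rfl
    rw [h3]
    have h4 := abs_add_le (y j) (t j)
    linarith only [h1, h2, h4]
  rintro ⟨k, hk, hkz⟩
  have hkφ : φ i y = k := by rw [hφ, ← hkz, (g i).symm_apply_apply]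
  have hiF : i ∈ F := by
    refine Finset.mem_filter.2 ⟨hi, ?_⟩
    have h1 := hφn i y
    rw [hkφ] at h1
    have h2 := norm_sub_le (y + (t - g i 0)) y
    rw [add_sub_cancel_left, ← h1] at h2
    linarith only [h2, hy1, hKn k hk, heta]
  refine hy2 (ψ i) (Finset.mem_image_of_mem ψ hiF) (ψ i y - φ i y) ((hψ i hiF).2 y hy1) ?_
  rw [sub_sub_cancel, hkφ]
  exact hk

end Vale.Agent.N230
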